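import Vale.Agent.P054.T2.H622.Vert

/-!
# P054/T2, section C: [VERT-A'], the wrong type side case with a positive vertical dimension

Pure linear algebra over `H622/Vert.lean`. `ζ` is injective on `V₂` (directions of `r`), the kernel of `ζ` on
`L V₂ + L (r - s)` is at most a constant line `L n₀`. If the vertical part of `T_r` is not zero then
`dim V₁ ≤ σ + 1` or `dim V₂ ≤ σ + 1`.
-/

set_option autoImplicit false

namespace Vale.Agent.P054.T2.H225

open Vale.Agent.P054.T2.H715 Vale.Agent.P054.T2.H622 Module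

variable {k L : Type*} [Field k] [Field L] [Algebra k L] {ι : Type*}

theorem ext_inf [Finite ι] (V V' : Submodule k (ι → k)) : ext L (V ⊓ V') = ext L V ⊓ ext L V' := by
  refine le_antisymm (le_inf (ext_mono inf_le_left) (ext_mono inf_le_right)) ?_
  rintro x ⟨h1, h2⟩
  exact mem_ext_of_comp fun l => ⟨comp_mem h1 l, comp_mem h2 l⟩

theorem ext_bot : ext L (⊥ : Submodule k (ι → k)) = ⊥ := by
  rw [eq_bot_iff]
  refine Submodule.span_le.mpr ?_
  rintro _ ⟨v, hv, rfl⟩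
  have h : v = 0 := hv
  subst h
  show cst L (0 : ι → k) ∈ (⊥ : Submodule L (ι → L))
  rw [Submodule.mem_bot]
  funext i
  simp [cst]

theorem W1_le_Sp (Ds : Submodule L (Derivation k L L)) (r : ι → L) :
    W1 Ds r ≤ Sp (Ds : Set (Derivation k L L)) r := by
  rintro _ ⟨D, hD, rfl⟩
  exact mem_Sp _ _ hD

/-- a map injective on `V` stays injective on `V ⊗ L` -/
theorem ext_inj [Finite ι] {κ : Type*} {V : Submodule k (ι → k)} (ζ₀ : (ι → k) →ₗ[k] (κ → k))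
    (ζ : (ι → L) →ₗ[L] (κ → L)) (hζ : ∀ v, ζ (cst L v) = cst L (ζ₀ v))
    (hinj : ∀ x ∈ V, ζ₀ x = 0 → x = 0) {x : ι → L} (hx : x ∈ ext L V) (h0 : ζ x = 0) : x = 0 := by
  have h1 := ext_ker ζ₀ ζ hζ hx h0
  have h2 : V ⊓ LinearMap.ker ζ₀ = ⊥ := by
    rw [eq_bot_iff]
    rintro y ⟨hy1, hy2⟩
    exact (Submodule.mem_bot _).mpr (hinj y hy1 (LinearMap.mem_ker.mp hy2))
  rw [h2, ext_bot] at h1
  exact (Submodule.mem_bot _).mp h1

/-- **[VERT-A'], with the vertical dimension.** Under the hypotheses the vertical dimension is at most one. -/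
theorem vertA_le_one [Finite ι] {κ : Type*} {Ds : Submodule L (Derivation k L L)}
    {s r : ι → L} (ζ₀ : (ι → k) →ₗ[k] (κ → k)) (ζ : (ι → L) →ₗ[L] (κ → L))
    (hζ : ∀ v, ζ (cst L v) = cst L (ζ₀ v)) (V₂ : Submodule k (ι → k)) (hr : W1 Ds r ≤ ext L V₂)
    (hinj : ∀ x ∈ V₂, ζ₀ x = 0 → x = 0) : finrank L (Vt Ds s r ζ) ≤ 1 := by
  have h1 : Function.Injective (ζ.comp (Vt Ds s r ζ).subtype) := by
    rw [← LinearMap.ker_eq_bot, eq_bot_iff]
    intro x hx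
    have h2 : ζ (x : ι → L) = 0 := LinearMap.mem_ker.mp hx
    exact (Submodule.mem_bot _).mpr (Subtype.ext (ext_inj ζ₀ ζ hζ hinj (hr x.2.1) h2))
  have h3 : LinearMap.range (ζ.comp (Vt Ds s r ζ).subtype) ≤ Submodule.span L {ζ (r - s)} := by
    rintro _ ⟨x, rfl⟩
    exact x.2.2
  have h4 : finrank L (Submodule.span L {ζ (r - s)}) ≤ 1 :=
    (finrank_span_le_card ({ζ (r - s)} : Set (κ → L))).trans (by simp)
  have h5 : FiniteDimensional L (Submodule.span L {ζ (r - s)}) :=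
    FiniteDimensional.span_of_finite L (Set.finite_singleton _)
  have h6 := LinearMap.finrank_range_of_inj h1
  have h7 := Submodule.finrank_mono h3
  omega

/-- **[VERT-A'].** -/
theorem vertA [Finite ι] {κ : Type*} {Ds : Submodule L (Derivation k L L)}
    (hlie : ∀ D ∈ Ds, ∀ E ∈ Ds, ⁅D, E⁆ ∈ Ds) {s r : ι → L} (hdec : Dec Ds s r)
    (ζ₀ : (ι → k) →ₗ[k] (κ → k)) (ζ : (ι → L) →ₗ[L] (κ → L)) (hζ : ∀ v, ζ (cst L v) = cst L (ζ₀ v))
    (V₁ V₂ : Submodule k (ι → k)) (hV₁ : ext L V₁ = Sp (Ds : Set (Derivation k L L)) s)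
    (hV₂ : ext L V₂ = Sp (Ds : Set (Derivation k L L)) r) {n₀ : ι → k} (hn₀ : ζ₀ n₀ = 0)
    (hinj : ∀ x ∈ V₂, ζ₀ x = 0 → x = 0)
    (hker : ∀ x ∈ ext L V₂ ⊔ Submodule.span L {r - s}, ζ x = 0 → x ∈ Submodule.span L {cst L n₀})
    {σ v : ℕ} (hv : 1 ≤ v) (hT : finrank L (W1 Ds r) ≤ σ + v) (hVt : finrank L (Vt Ds s r ζ) = v) :
    finrank k V₁ ≤ σ + 1 ∨ finrank k V₂ ≤ σ + 1 := by
  classical
  have hr : W1 Ds r ≤ ext L V₂ := hV₂ ▸ W1_le_Sp Ds r
  have hv1 : v ≤ 1 := hVt ▸ vertA_le_one ζ₀ ζ hζ V₂ hr hinj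
  set U : Submodule L (ι → L) := Submodule.span L {cst L n₀} with hU
  have hUst : Stab (Ds : Set (Derivation k L L)) U :=
    stab_span_const (by rintro D _ v hv; rw [Set.mem_singleton_iff.mp hv]; exact dv_cst D n₀)
  have hUV : U ⊓ ext L V₂ = ⊥ := by
    rw [eq_bot_iff]
    rintro x ⟨hx1, hx2⟩
    obtain ⟨a, rfl⟩ := Submodule.mem_span_singleton.mp hx1
    refine (Submodule.mem_bot _).mpr (ext_inj ζ₀ ζ hζ hinj hx2 ?_)
    rw [map_smul, hζ, hn₀]
    funext i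
    simp [cst]
  have hUf : finrank L U ≤ 1 := (finrank_span_le_card ({cst L n₀} : Set (ι → L))).trans (by simp)
  -- a nonzero vertical vector
  obtain ⟨ρ, hρ, hρ0⟩ : ∃ ρ ∈ Vt Ds s r ζ, ρ ≠ 0 := by
    by_contra hcon
    push Not at hcon
    have h1 : Vt Ds s r ζ = ⊥ := by
      rw [eq_bot_iff]; intro x hx; exact (Submodule.mem_bot _).mpr (hcon x hx)
    rw [h1, finrank_bot] at hVt
    omega
  obtain ⟨hρ1, hρ2⟩ := hρ
  obtain ⟨c, hc⟩ := Submodule.mem_span_singleton.mp (Submodule.mem_comap.mp hρ2)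
  have hc0 : c ≠ 0 := by
    rintro rfl
    exact hρ0 (ext_inj ζ₀ ζ hζ hinj (hr hρ1) (by rw [← hc, zero_smul]))
  have h1 : ρ - c • (r - s) ∈ U := by
    refine hker _ (Submodule.sub_mem _ (Submodule.mem_sup_left (hr hρ1))
      (Submodule.smul_mem _ _ (Submodule.mem_sup_right (Submodule.mem_span_singleton_self _)))) ?_
    rw [map_sub, map_smul, hc, sub_self]
  have h2 : r - s ∈ W1 Ds r ⊔ U := by
    have h3 : r - s = c⁻¹ • ρ + (-c⁻¹) • (ρ - c • (r - s)) := by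
      rw [smul_sub, smul_smul, neg_mul, inv_mul_cancel₀ hc0, neg_smul, neg_smul, one_smul]
      abel
    rw [h3]
    exact Submodule.add_mem_sup ((W1 Ds r).smul_mem _ hρ1) (U.smul_mem _ h1)
  have h4 : ext L V₁ ≤ W1 Ds r ⊔ U := hV₁ ▸ Sp_le_W1_sup hlie hdec hUst h2
  have h5 : finrank L ↥(W1 Ds r ⊔ U) ≤ finrank L (W1 Ds r) + finrank L U :=
    Submodule.finrank_add_le_finrank_add_finrank _ _
  have hf1 : finrank L (ext L V₁) = finrank k V₁ := finrank_ext _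
  have hf2 : finrank L (ext L V₂) = finrank k V₂ := finrank_ext _
  by_cases hcase : finrank k V₁ ≤ σ + 1
  · exact Or.inl hcase
  right
  have h6 : ext L V₁ = W1 Ds r ⊔ U := Submodule.eq_of_le_of_finrank_le h4 (by omega)
  have h7 : W1 Ds r = ext L (V₁ ⊓ V₂) := by
    rw [ext_inf, h6, sup_inf_assoc_of_le U hr, hUV, sup_bot_eq]
  have h8 : Sp (Ds : Set (Derivation k L L)) r ≤ W1 Ds r :=
    Sp_le (h7 ▸ stab_ext _ _) (fun D hD => ⟨D, hD, rfl⟩)
  have h9 : finrank L (ext L V₂) ≤ finrank L (W1 Ds r) := Submodule.finrank_mono (hV₂ ▸ h8)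
  omega

end Vale.Agent.P054.T2.H225
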